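import Vale.Agent.P092.H538.MeanA
import Vale.Agent.P092.L.H538.PropA

/-!
P092, stage (L) + (S) (helper776, after helper538): elements of the centralizer of `K` have
uniformly little mass far out in the regular region, if `K` is not amenable (row model).
-/

set_option linter.all false

open scoped InnerProductSpace
open Filter Topology ContinuousLinearMap

namespace Vale.Agent.P092.L.H538

open Vale.Agent.P092.H160 Vale.Agent.P092.H200 Vale.Agent.P092.L.H553
open Vale.Agent.P092.H538 hiding propA_row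
open Vale.Agent.P092.H553 hiding G3 en rm rA rB G12 G23 Reg NN NS
open Vale.Agent.P092.H432

variable {G3 : Type} [Group G3] [Emb G3]

/-- Block [S6]: elements of the centralizer of `K` have uniformly little mass far out in the
regular region, if `K` is not amenable (row model). -/
theorem propA_row {Λ ι : Type} [Group Λ] [Fintype ι] [DecidableEq ι] {t : ℝ}
    {R : Λ → (Ell2 (G3 × ι) →L[ℂ] Ell2 (G3 × ι))} (hR : ARep t R)
    {E : Set Λ → (Ell2 (G3 × ι) →L[ℂ] Ell2 (G3 × ι))} (hE : EFam R E)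
    (K : Subgroup Λ) (hK : ¬ ∃ m, H200.IsInvMean K m) {ε : ℝ} (hε : 0 < ε) :
    ∃ r : ℝ, ∀ w : Λ, (∀ v ∈ K, w * v = v * w) →
      Real.sqrt (∑ i : ι, ‖mp ι (ind fun g : G3 => Reg r (g : G3)) (R w (ep i))‖ ^ 2) ≤ ε := by
  classical
  by_contra hcon
  push Not at hcon
  choose w hw1 hw2 using fun k : ℕ => hcon (k : ℝ)
  obtain ⟨χ, hχ1, hχ2, hχ3, hχ4⟩ := L.H428.cutoff (G3 := G3)
  obtain ⟨U, hU⟩ : ∃ U : Ultrafilter ℕ, (U : Filter ℕ) ≤ atTop :=
    ⟨hyperfilter ℕ, Nat.hyperfilter_le_atTop⟩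
  have hcut : CutOff (Γ := G3) U (fun k g => χ k (g : G3)) := by
    refine ⟨fun k g => (hχ1 k _).1, fun k g => (hχ1 k _).2, fun s δ hδ => ?_, fun t δ hδ => ?_⟩
    · filter_upwards [hU (hχ4 (s : G3) 1 δ hδ)] with k hk g
      have := hk (g : G3)
      rw [mul_one] at this
      exact this
    · filter_upwards [hU (hχ4 1 (t : G3) δ hδ)] with k hk g
      have := hk (g : G3)
      rw [one_mul] at this
      exact this
  haveI : Countable G3 := countable_emb G3
  refine hK (mean_of_amenA (z := w) hR hE hcut K (fun k v hv => hw1 k v hv)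
    (fun S ε' hε' => ?_) ?_)
  · obtain ⟨B, μ, R', h1, h2, h3, h4, h5, h6⟩ := L.H658.amen_fun S hε'
    refine ⟨B, μ, h1, h2, h3, h4, fun s hs => ?_, fun b t δ hδ => ?_⟩
    · filter_upwards [hU (hχ3 R')] with k hk g hg
      exact h5 s hs g (hk _ hg)
    · obtain ⟨R'', hR''⟩ := h6 b t δ hδ
      filter_upwards [hU (hχ3 R'')] with k hk g hg
      exact hR'' g (hk _ hg)
  · have hlow : ε ^ 2 ≤ ∑ i : ι, tA U R w (fun k (g : G3) => χ k (g : G3)) (ep i) := by
      refine ge_of_tendsto (tendsto_finsetSum Finset.univ fun i _ =>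
        tA_spec (z := w) (U := U) hR (C := 1) (fun k g => hcut.abs_le k g) (ep i))
        (Eventually.of_forall fun k => ?_)
      have h7 := (hw2 k).le
      have h0 : 0 ≤ ∑ i : ι, ‖mp ι (ind fun g : G3 => Reg (k : ℝ) (g : G3)) (R (w k) (ep i))‖ ^ 2 :=
        Finset.sum_nonneg fun i _ => by positivity
      have h8 : ε ^ 2 ≤
          ∑ i : ι, ‖mp ι (ind fun g : G3 => Reg (k : ℝ) (g : G3)) (R (w k) (ep i))‖ ^ 2 := by
        rw [← Real.sq_sqrt h0]
        gcongr
      refine h8.trans (Finset.sum_le_sum fun i _ => ?_)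
      have h9 : ∀ x : G3 × ι, |(fun x : G3 × ι => ind (fun g : G3 => Reg (k : ℝ) (g : G3)) x.1) x| ≤ 1 :=
        fun x => abs_ind_le _ _
      rw [mp, norm_mo_sq h9]
      refine Summable.tsum_le_tsum (fun x => ?_) ?_
        (summable_mo (F := fun x : G3 × ι => χ k (x.1 : G3)) (fun x => hcut.abs_le k x.1) _)
      · refine mul_le_mul_of_nonneg_right ?_ (by positivity)
        by_cases hr : Reg (k : ℝ) (x.1 : G3)
        · rw [ind_pos (P := fun g : G3 => Reg (k : ℝ) (g : G3)) hr, hχ2 k _ hr]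
          norm_num
        · rw [ind_neg (P := fun g : G3 => Reg (k : ℝ) (g : G3)) hr]
          simpa using (hχ1 k (x.1 : G3)).1
      · refine (summable_sq (mo (fun x : G3 × ι => ind (fun g : G3 => Reg (k : ℝ) (g : G3)) x.1)
          (R (w k) (ep i)))).congr fun x => ?_
        rw [mo_apply h9, norm_mul, mul_pow, Complex.norm_real, Real.norm_eq_abs, sq_abs]
    exact lt_of_lt_of_le (by positivity) hlow

end Vale.Agent.P092.L.H538
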